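import Vale.Agent.Lib.P123.Upper
import Vale.Agent.Lib.P123.Lower

/-!
Crouzeix's conjecture and the optimal constant, in the notation of the problem: polynomials
`P(z) = ∑_{k ≤ d} b_k z^k` are given by their coefficients, `P(A) = ∑_{k ≤ d} b_k A^k`, and the
supremum is over the numerical range `{⟨A x, x⟩ : ‖x‖ = 1}`.
-/

open Polynomial

namespace Vale.Agent.Results.P123.AllConstants

/-- the polynomial with coefficients `b 0, …, b d` -/
private noncomputable def pol (d : ℕ) (b : ℕ → ℂ) : ℂ[X] :=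
  ∑ k ∈ Finset.range (d + 1), C (b k) * X ^ k

private theorem eval_pol (d : ℕ) (b : ℕ → ℂ) (z : ℂ) :
    (pol d b).eval z = ∑ k ∈ Finset.range (d + 1), b k * z ^ k := by
  simp [pol, eval_finsetSum]

private theorem aeval_pol {H : Type*} [NormedAddCommGroup H] [InnerProductSpace ℂ H]
    (d : ℕ) (b : ℕ → ℂ) (A : H →L[ℂ] H) :
    aeval A (pol d b) = ∑ k ∈ Finset.range (d + 1), b k • A ^ k := by
  simp [pol, map_sum, Algebra.smul_def]

private theorem pol_coeff (P : ℂ[X]) : pol P.natDegree P.coeff = P := by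
  unfold pol
  exact (P.as_sum_range_C_mul_X_pow).symm

private theorem set_eq {H : Type*} [NormedAddCommGroup H] [InnerProductSpace ℂ H]
    (A : H →L[ℂ] H) (d : ℕ) (b : ℕ → ℂ) :
    (fun z => ‖(pol d b).eval z‖) '' Vale.Agent.Lib.P123.numRange A
      = {t : ℝ | ∃ x : H, ‖x‖ = 1 ∧
          t = ‖∑ k ∈ Finset.range (d + 1), b k * inner ℂ x (A x) ^ k‖} := by
  ext t
  constructor
  · rintro ⟨_, ⟨x, hx, rfl⟩, rfl⟩
    exact ⟨x, hx, by rw [← eval_pol]⟩
  · rintro ⟨x, hx, rfl⟩
    exact ⟨_, ⟨x, hx, rfl⟩, by rw [← eval_pol]⟩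

/-- **Crouzeix's conjecture, with the optimal constant.** A real number `C` satisfies
`‖P(A)‖ ≤ C · sup_{z ∈ W(A)} |P(z)|` for every nonzero complex Hilbert space `H`, every bounded linear
operator `A` on `H` and every polynomial `P(z) = ∑_{k ≤ d} b_k z^k` if and only if `C ≥ 2`. -/
theorem result.{u} : ∀ C : ℝ,
    (∀ (H : Type u) [NormedAddCommGroup H] [InnerProductSpace ℂ H] [CompleteSpace H]
        [Nontrivial H] (A : H →L[ℂ] H) (d : ℕ) (b : ℕ → ℂ),
      ‖∑ k ∈ Finset.range (d + 1), b k • A ^ k‖ ≤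
        C * sSup {t : ℝ | ∃ x : H, ‖x‖ = 1 ∧
          t = ‖∑ k ∈ Finset.range (d + 1), b k * inner ℂ x (A x) ^ k‖}) ↔
      2 ≤ C := by
  intro C
  constructor
  · intro h
    refine Vale.Agent.Lib.P123.lower C fun H _ _ _ _ A P => ?_
    have := h H A P.natDegree P.coeff
    rwa [← aeval_pol, ← set_eq, pol_coeff] at this
  · intro hC H _ _ _ _ A d b
    have h := Vale.Agent.Lib.P123.upper A (pol d b)
    rw [aeval_pol, set_eq] at h
    refine h.trans (mul_le_mul_of_nonneg_right hC ?_)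
    apply Real.sSup_nonneg
    rintro _ ⟨x, hx, rfl⟩
    exact norm_nonneg _

end Vale.Agent.Results.P123.AllConstants
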