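import Vale.Agent.Lib.P123.Upper

/-!
Crouzeix's conjecture, stated without auxiliary definitions: if `|P| ≤ M` on the numerical range
of the bounded operator `A`, then `‖P(A)‖ ≤ 2 M`.
-/

open Polynomial

namespace Vale.Agent.Results.P123.BoundTwo

theorem result.{u} : ∀ (H : Type u) [NormedAddCommGroup H] [InnerProductSpace ℂ H]
    [CompleteSpace H] [Nontrivial H] (A : H →L[ℂ] H) (P : ℂ[X]) (M : ℝ),
    (∀ x : H, ‖x‖ = 1 → ‖P.eval (inner ℂ x (A x))‖ ≤ M) → ‖aeval A P‖ ≤ 2 * M := by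
  intro H _ _ _ _ A P M hM
  refine (Vale.Agent.Lib.P123.upper A P).trans ?_
  refine mul_le_mul_of_nonneg_left ?_ (by norm_num)
  obtain ⟨x, hx⟩ := exists_norm_eq H (zero_le_one (α := ℝ))
  refine csSup_le ⟨_, ⟨_, ⟨x, hx, rfl⟩, rfl⟩⟩ ?_
  rintro _ ⟨z, ⟨y, hy, rfl⟩, rfl⟩
  exact hM y hy

end Vale.Agent.Results.P123.BoundTwo
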