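import Vale.Agent.Lib.P123.Upper
import Vale.Agent.Lib.P123.Lower

/-!
Crouzeix's conjecture: the least constant `C` such that
`‖P(A)‖ ≤ C * sup over the numerical range of A of |P|`
for every nonzero complex Hilbert space, every bounded operator `A` and every polynomial `P`
is equal to `2`.
-/

open Polynomial

namespace Vale.Agent.Results.P123.Crouzeix

theorem result.{u} :
    IsLeast {C : ℝ | ∀ (H : Type u) [NormedAddCommGroup H] [InnerProductSpace ℂ H]
      [CompleteSpace H] [Nontrivial H] (A : H →L[ℂ] H) (P : ℂ[X]),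
      ‖aeval A P‖ ≤ C * sSup ((fun z => ‖P.eval z‖) '' Vale.Agent.Lib.P123.numRange A)} 2 := by
  refine ⟨?_, ?_⟩
  · intro H _ _ _ _ A P
    exact Vale.Agent.Lib.P123.upper A P
  · intro C hC
    exact Vale.Agent.Lib.P123.lower C hC

end Vale.Agent.Results.P123.Crouzeix
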